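import Mathlib.Data.Real.Basic
import Mathlib.Tactic.Ring
import Mathlib.Tactic.Linarith
import Mathlib.Tactic.NormNum

/-!
# P280Z, block Al: a checker for polynomial identities
-/

noncomputable section

namespace Vale.Agent.P280Z.Al.C3

/-- sparse polynomials: a key for the monomial, and the coefficient `a - b` -/
inductive L : Type
  | nil : L
  | cons (k a b : ℕ) (t : L) : L

/-- lists of polynomials -/
inductive LL : Type
  | nil : LL
  | cons (h : L) (t : LL) : LL

/-- the monomial of a key -/
def mono : List ℝ → ℕ → ℝ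
  | [], _ => 1
  | x :: xs, k => x ^ (k % 32) * mono xs (k / 32)

/-- small digits -/
def sm (n : ℕ) : ℕ → Bool :=
  Nat.rec (fun _ => true)
    (fun _ ih k => Bool.rec false (ih (Nat.div k 32)) (Nat.ble (Nat.mod k 32) 15)) n

theorem sm_succ (n k : ℕ) : sm (n + 1) k = true ↔ k % 32 ≤ 15 ∧ sm n (k / 32) = true := by
  show Bool.rec false (sm n (k / 32)) (Nat.ble (k % 32) 15) = true ↔ _
  cases h : Nat.ble (k % 32) 15
  · have : ¬ k % 32 ≤ 15 := fun h' => by rw [Nat.ble_eq.mpr h'] at h; cases h
    simp [this]
  · simp [Nat.ble_eq.mp h]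

theorem mono_add (xs : List ℝ) : ∀ k l, sm xs.length k = true → sm xs.length l = true →
    mono xs (k + l) = mono xs k * mono xs l := by
  induction xs with
  | nil => intro k l _ _; simp [mono]
  | cons x xs ih =>
    intro k l hk hl
    obtain ⟨h1, h2⟩ := (sm_succ _ _).mp hk
    obtain ⟨h3, h4⟩ := (sm_succ _ _).mp hl
    have e1 : (k + l) % 32 = k % 32 + l % 32 := by omega
    have e2 : (k + l) / 32 = k / 32 + l / 32 := by omega
    simp only [mono, e1, e2, ih _ _ h2 h4, pow_add]
    ring

/-- the value of a polynomial -/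
def ev (xs : List ℝ) : L → ℝ
  | .nil => 0
  | .cons k a b t => ((a : ℝ) - b) * mono xs k + ev xs t

/-- the sum of the values -/
def evs (xs : List ℝ) : LL → ℝ
  | .nil => 0
  | .cons h t => ev xs h + evs xs t

/-- the sum of two polynomials -/
def mrg (l : L) : L → L :=
  L.rec (motive := fun _ => L → L) (fun m => m)
    (fun k a b t ih m => L.rec (motive := fun _ => L) (.cons k a b t)
      (fun k' a' b' t' ih' => Bool.rec
        (.cons k a b (ih (.cons k' a' b' t')))
        (Bool.rec (.cons k' a' b' ih') (.cons k (Nat.add a a') (Nat.add b b') (ih t'))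
          (Nat.ble k' k))
        (Nat.ble k k')) m) l

theorem ev_mrg (xs : List ℝ) (l : L) : ∀ m, ev xs (mrg l m) = ev xs l + ev xs m := by
  induction l with
  | nil => intro m; show ev xs m = _; simp [ev]
  | cons k a b t ih =>
    intro m
    induction m with
    | nil => show ev xs (.cons k a b t) = _; simp [ev]
    | cons k' a' b' t' ih' =>
      show ev xs (Bool.rec (.cons k a b (mrg t (.cons k' a' b' t')))
        (Bool.rec (.cons k' a' b' (mrg (.cons k a b t) t'))
          (.cons k (a + a') (b + b') (mrg t t')) (Nat.ble k' k)) (Nat.ble k k')) = _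
      cases h : Nat.ble k k'
      · simp only [ev, ih]; ring
      · cases h' : Nat.ble k' k
        · simp only [ev] at ih' ⊢; rw [ih']; ring
        · have : k = k' := le_antisymm (Nat.ble_eq.mp h) (Nat.ble_eq.mp h')
          subst this
          simp only [ev, ih]; push_cast; ring

/-- one round of additions -/
def prs (l : LL) : LL :=
  (LL.rec (motive := fun _ => Option L → LL)
    (fun o => Option.rec .nil (fun x => .cons x .nil) o)
    (fun h _ ih o => Option.rec (ih (some h)) (fun x => .cons (mrg x h) (ih none)) o) l) none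

theorem evs_prs (xs : List ℝ) (l : LL) : evs xs (prs l) = evs xs l := by
  have : ∀ o : Option L, evs xs ((LL.rec (motive := fun _ => Option L → LL)
      (fun o => Option.rec .nil (fun x => .cons x .nil) o)
      (fun h _ ih o => Option.rec (ih (some h)) (fun x => .cons (mrg x h) (ih none)) o) l) o) =
      evs xs l + Option.rec 0 (ev xs) o := by
    induction l with
    | nil => intro o; cases o <;> simp [evs]
    | cons h t ih =>
      intro o
      cases o with
      | none => simp only [ih, evs]; ring
      | some x => simp only [ih, evs, ev_mrg]; ring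
  simpa [prs] using this none

/-- the sum of a list -/
def sum (n : ℕ) : LL → L :=
  Nat.rec (fun l => LL.rec .nil (fun h _ ih => mrg h ih) l) (fun _ ih l => ih (prs l)) n

theorem ev_sum (xs : List ℝ) (n : ℕ) : ∀ l, ev xs (sum n l) = evs xs l := by
  induction n with
  | zero =>
    intro l
    induction l with
    | nil => rfl
    | cons h t ih => exact (ev_mrg xs h (sum 0 t)).trans (by rw [ih]; rfl)
  | succ n ih => intro l; exact (ih (prs l)).trans (evs_prs xs l)

/-- all keys are small -/
def smL (n : ℕ) (l : L) : Bool := L.rec true (fun k _ _ _ ih => Bool.rec false ih (sm n k)) l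

theorem smL_cons {n k a b t} : smL n (.cons k a b t) = true ↔ sm n k = true ∧ smL n t = true := by
  show Bool.rec false (smL n t) (sm n k) = true ↔ _
  cases sm n k <;> simp

/-- the product with a term -/
def scP (k c : ℕ) (l : L) : L :=
  L.rec .nil (fun k' a b _ ih => .cons (Nat.add k k') (Nat.mul c a) (Nat.mul c b) ih) l

/-- the product with the negative of a term -/
def scN (k c : ℕ) (l : L) : L :=
  L.rec .nil (fun k' a b _ ih => .cons (Nat.add k k') (Nat.mul c b) (Nat.mul c a) ih) l

theorem ev_scP (xs : List ℝ) (k c : ℕ) (hk : sm xs.length k = true) (l : L)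
    (hl : smL xs.length l = true) : ev xs (scP k c l) = c * mono xs k * ev xs l := by
  induction l with
  | nil => show (0 : ℝ) = _; simp [ev]
  | cons k' a b t ih =>
    obtain ⟨h1, h2⟩ := smL_cons.mp hl
    show ev xs (.cons (k + k') (c * a) (c * b) (scP k c t)) = _
    simp only [ev, ih h2, mono_add xs _ _ hk h1]; push_cast; ring

theorem ev_scN (xs : List ℝ) (k c : ℕ) (hk : sm xs.length k = true) (l : L)
    (hl : smL xs.length l = true) : ev xs (scN k c l) = -(c * mono xs k * ev xs l) := by
  induction l with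
  | nil => show (0 : ℝ) = _; simp [ev]
  | cons k' a b t ih =>
    obtain ⟨h1, h2⟩ := smL_cons.mp hl
    show ev xs (.cons (k + k') (c * b) (c * a) (scN k c t)) = _
    simp only [ev, ih h2, mono_add xs _ _ hk h1]; push_cast; ring

/-- the products with the terms of `f` -/
def trm (f c : L) : LL :=
  L.rec .nil (fun k a b _ ih => .cons
    (Bool.rec (scP k (Nat.sub a b) c) (scN k (Nat.sub b a) c) (Nat.ble a b)) ih) f

theorem evs_trm (xs : List ℝ) (c : L) (hc : smL xs.length c = true) (f : L)
    (hf : smL xs.length f = true) : evs xs (trm f c) = ev xs f * ev xs c := by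
  induction f with
  | nil => show (0 : ℝ) = _; simp [ev]
  | cons k a b t ih =>
    obtain ⟨h1, h2⟩ := smL_cons.mp hf
    show ev xs (Bool.rec (scP k (a - b) c) (scN k (b - a) c) (Nat.ble a b)) + evs xs (trm t c) = _
    rw [ih h2]
    cases h : Nat.ble a b
    · have : b ≤ a := le_of_not_ge fun h' => by rw [Nat.ble_eq.mpr h'] at h; cases h
      simp only [ev, ev_scP xs _ _ h1 c hc, Nat.cast_sub this]; ring
    · simp only [ev, ev_scN xs _ _ h1 c hc, Nat.cast_sub (Nat.ble_eq.mp h)]; ring

/-- the products `f c`; they are replaced by zero if a key is not small -/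
def prd (f c : LL) : LL :=
  LL.rec (motive := fun _ => LL → LL) (fun _ => .nil)
    (fun f _ ih c => LL.rec .nil (fun c t _ => .cons
      (Bool.rec .nil (Bool.rec .nil (sum 8 (trm f c)) (smL 12 c)) (smL 12 f)) (ih t)) c) f c

/-- all the polynomials vanish -/
def Van (xs : List ℝ) : LL → Prop
  | .nil => True
  | .cons h t => ev xs h = 0 ∧ Van xs t

theorem evs_prd (xs : List ℝ) (hx : xs.length = 12) (f : LL) (hf : Van xs f) :
    ∀ c, evs xs (prd f c) = 0 := by
  induction f with
  | nil => intro c; rfl
  | cons f t ih =>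
    intro c
    cases c with
    | nil => rfl
    | cons c u =>
      show ev xs (Bool.rec .nil (Bool.rec .nil (sum 8 (trm f c)) (smL 12 c)) (smL 12 f)) +
        evs xs (prd t u) = 0
      rw [ih hf.2, add_zero]
      cases h1 : smL 12 f
      · rfl
      · cases h2 : smL 12 c
        · rfl
        · show ev xs (sum 8 (trm f c)) = 0
          rw [ev_sum, evs_trm xs c (hx ▸ h2) f (hx ▸ h1), hf.1, zero_mul]

/-- the exchange of two blocks of five variables -/
def sw (k : ℕ) : ℕ :=
  Nat.add (Nat.mod (Nat.div k 33554432) 33554432)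
    (Nat.mul 33554432 (Nat.add (Nat.mod k 33554432)
      (Nat.mul 33554432 (Nat.div (Nat.div k 33554432) 33554432))))

theorem mono_sw (a1 a2 a3 a4 a5 b1 b2 b3 b4 b5 c1 c2 : ℝ) (k : ℕ) :
    mono [a1, a2, a3, a4, a5, b1, b2, b3, b4, b5, c1, c2] (sw k) =
      mono [b1, b2, b3, b4, b5, a1, a2, a3, a4, a5, c1, c2] k := by
  have e : sw k = k / 33554432 % 33554432 +
    33554432 * (k % 33554432 + 33554432 * (k / 33554432 / 33554432)) := rfl
  have e5 : ∀ x : ℕ, x / 32 / 32 / 32 / 32 / 32 = x / 33554432 := fun x => by omega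
  have d : ∀ x y : ℕ, x % 33554432 = y % 33554432 → x % 32 = y % 32 ∧ x / 32 % 32 = y / 32 % 32 ∧
      x / 32 / 32 % 32 = y / 32 / 32 % 32 ∧ x / 32 / 32 / 32 % 32 = y / 32 / 32 / 32 % 32 ∧
      x / 32 / 32 / 32 / 32 % 32 = y / 32 / 32 / 32 / 32 % 32 := fun x y h => by omega
  obtain ⟨p1, p2, p3, p4, p5⟩ := d (sw k) (k / 33554432) (by omega)
  obtain ⟨q1, q2, q3, q4, q5⟩ := d (sw k / 33554432) k (by omega)
  have r : sw k / 33554432 / 33554432 = k / 33554432 / 33554432 := by omega
  simp only [mono, e5, p1, p2, p3, p4, p5, q1, q2, q3, q4, q5, r]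
  ring

/-- the exchanged terms -/
def sws (l : L) : LL := L.rec .nil (fun k a b _ ih => .cons (.cons (sw k) a b .nil) ih) l

theorem evs_sws (a1 a2 a3 a4 a5 b1 b2 b3 b4 b5 c1 c2 : ℝ) (l : L) :
    evs [a1, a2, a3, a4, a5, b1, b2, b3, b4, b5, c1, c2] (sws l) =
      ev [b1, b2, b3, b4, b5, a1, a2, a3, a4, a5, c1, c2] l := by
  induction l with
  | nil => rfl
  | cons k a b t ih =>
    show evs _ (.cons (.cons (sw k) a b .nil) (sws t)) = _
    simp only [evs, ev, ih, mono_sw, add_zero]

/-- all coefficients vanish -/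
def allz (l : L) : Bool := L.rec true (fun _ a b _ ih => Bool.rec false ih (Nat.beq a b)) l

theorem ev_allz (xs : List ℝ) (l : L) (h : allz l = true) : ev xs l = 0 := by
  induction l with
  | nil => rfl
  | cons k a b t ih =>
    have h' : Bool.rec false (allz t) (Nat.beq a b) = true := h
    cases h1 : Nat.beq a b
    · rw [h1] at h'; cases h'
    · rw [h1] at h'
      simp only [ev, ih h', Nat.eq_of_beq_eq_true h1]; ring

/-- evaluation of the keys and the coefficients -/
def frc (l : L) (g : L → Bool) : Bool := g l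

/-- the check -/
def chk (f c : LL) (t : L) : Bool :=
  frc (sum 5 (prd f c)) fun s => allz (mrg (mrg s (sum 14 (sws s))) t)

theorem chk_ok {f c : LL} {t : L} (h : chk f c t = true) (a1 a2 a3 a4 a5 b1 b2 b3 b4 b5 c1 c2 : ℝ)
    (h1 : Van [a1, a2, a3, a4, a5, b1, b2, b3, b4, b5, c1, c2] f)
    (h2 : Van [b1, b2, b3, b4, b5, a1, a2, a3, a4, a5, c1, c2] f) :
    ev [a1, a2, a3, a4, a5, b1, b2, b3, b4, b5, c1, c2] t = 0 := by
  have := ev_allz [a1, a2, a3, a4, a5, b1, b2, b3, b4, b5, c1, c2] _ h
  rw [ev_mrg, ev_mrg, ev_sum, ev_sum, evs_sws, ev_sum, evs_prd _ rfl f h1, evs_prd _ rfl f h2]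
    at this
  simpa using this

end Vale.Agent.P280Z.Al.C3
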